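import Mathlib
import Vale.Agent.Lib.P162.Defs

/-!
# P162 (Thorp shuffle), job E1: arithmetic of one shuffle

Two positions of `ZMod (2 * h)` have the same pair index (the same image in `ZMod h`) exactly
when they are equal or differ by `h`; and one Thorp shuffle with fixed coins is injective on
positions.
-/

namespace Vale.Agent.Lib.P162.H36

open Finset BigOperators

/-- `h + h = 0` in `ZMod (2 * h)`. -/
theorem half_add_half (h : ℕ) : (h : ZMod (2 * h)) + h = 0 := by
  have e : ((2 * h : ℕ) : ZMod (2 * h)) = 0 := ZMod.natCast_self (2 * h)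
  rw [← e]
  push_cast
  ring

theorem cast_eq_iff (h : ℕ) [NeZero h] (u v : ZMod (2 * h)) :
    (ZMod.cast u : ZMod h) = ZMod.cast v ↔ v = u ∨ v = u + (h : ZMod (2 * h)) := by
  have hh : 0 < h := Nat.pos_of_ne_zero (NeZero.ne h)
  have hd : h ∣ 2 * h := dvd_mul_left h 2
  have h2 : (h : ZMod (2 * h)) + h = 0 := half_add_half h
  constructor
  · intro hc
    rw [← ZMod.natCast_val u, ← ZMod.natCast_val v, ZMod.natCast_eq_natCast_iff'] at hc
    have hu : u.val < 2 * h := ZMod.val_lt u
    have hv : v.val < 2 * h := ZMod.val_lt v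
    have eu : ((u.val : ℕ) : ZMod (2 * h)) = u := ZMod.natCast_zmod_val u
    have ev : ((v.val : ℕ) : ZMod (2 * h)) = v := ZMod.natCast_zmod_val v
    rcases lt_or_ge u.val h with hul | hul <;> rcases lt_or_ge v.val h with hvl | hvl
    · left
      rw [Nat.mod_eq_of_lt hul, Nat.mod_eq_of_lt hvl] at hc
      exact (ZMod.val_injective _ hc).symm
    · right
      have hsub : v.val - h < h := by omega
      rw [Nat.mod_eq_of_lt hul, Nat.mod_eq_sub_mod hvl, Nat.mod_eq_of_lt hsub] at hc
      have e : v.val = u.val + h := by omega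
      calc v = ((v.val : ℕ) : ZMod (2 * h)) := ev.symm
        _ = ((u.val + h : ℕ) : ZMod (2 * h)) := by rw [e]
        _ = u + (h : ZMod (2 * h)) := by push_cast; rw [eu]
    · right
      have hsub : u.val - h < h := by omega
      rw [Nat.mod_eq_sub_mod hul, Nat.mod_eq_of_lt hsub, Nat.mod_eq_of_lt hvl] at hc
      have e : u.val = v.val + h := by omega
      have e2 : u = v + (h : ZMod (2 * h)) := by
        calc u = ((u.val : ℕ) : ZMod (2 * h)) := eu.symm
          _ = ((v.val + h : ℕ) : ZMod (2 * h)) := by rw [e]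
          _ = v + (h : ZMod (2 * h)) := by push_cast; rw [ev]
      rw [e2, add_assoc, h2, add_zero]
    · left
      have hsubu : u.val - h < h := by omega
      have hsubv : v.val - h < h := by omega
      rw [Nat.mod_eq_sub_mod hul, Nat.mod_eq_of_lt hsubu, Nat.mod_eq_sub_mod hvl,
        Nat.mod_eq_of_lt hsubv] at hc
      have e : u.val = v.val := by omega
      exact (ZMod.val_injective _ e).symm
  · rintro (rfl | rfl)
    · rfl
    · rw [ZMod.cast_add hd, ZMod.cast_natCast hd, ZMod.natCast_self, add_zero]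

/-- The position reached by one shuffle, as a natural number. -/
theorem move_val (h : ℕ) [NeZero h] (c : ZMod h → Bool) (p : ZMod (2 * h)) :
    (move h c p).val = 2 * (p.val % h) +
      (if xor (decide (h ≤ p.val)) (c (ZMod.cast p)) then 1 else 0) := by
  have hh : 0 < h := Nat.pos_of_ne_zero (NeZero.ne h)
  have hi : p.val % h < h := Nat.mod_lt _ hh
  have hdiv : p.val % h + h * (p.val / h) = p.val := Nat.mod_add_div p.val h
  obtain ⟨b, hb⟩ : ∃ b : Bool, b = xor (decide (h ≤ p.val)) (c (ZMod.cast p)) := ⟨_, rfl⟩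
  have e : move h c p = ((2 * p.val + (if b then 1 else 0) : ℕ) : ZMod (2 * h)) := by
    unfold move
    rw [← hb]
    push_cast
    rw [ZMod.natCast_zmod_val]
  rw [e, ZMod.val_natCast, ← hb]
  have key : 2 * p.val + (if b then 1 else 0)
      = (2 * (p.val % h) + (if b then 1 else 0)) + (2 * h) * (p.val / h) := by
    have e3 : 2 * h * (p.val / h) = 2 * (h * (p.val / h)) := by ring
    rw [e3]
    omega
  rw [key, Nat.add_mul_mod_self_left]
  apply Nat.mod_eq_of_lt
  cases b <;> simp <;> omega

theorem move_injective (h : ℕ) [NeZero h] (c : ZMod h → Bool) :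
    Function.Injective (move h c) := by
  have hh : 0 < h := Nat.pos_of_ne_zero (NeZero.ne h)
  intro p p' hpp
  have hv := congrArg ZMod.val hpp
  rw [move_val, move_val] at hv
  have hu : p.val < 2 * h := ZMod.val_lt p
  have hu' : p'.val < 2 * h := ZMod.val_lt p'
  have hi : p.val % h = p'.val % h := by
    split_ifs at hv <;> omega
  have hcast : (ZMod.cast p : ZMod h) = ZMod.cast p' := by
    rw [← ZMod.natCast_val p, ← ZMod.natCast_val p', ZMod.natCast_eq_natCast_iff']
    exact hi
  rw [hcast, hi] at hv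
  have hle : h ≤ p.val ↔ h ≤ p'.val := by
    by_cases hA : h ≤ p.val <;> by_cases hA' : h ≤ p'.val <;>
      cases hC : c (ZMod.cast p') <;> simp [hA, hA', hC] at hv ⊢
  apply ZMod.val_injective
  by_cases hA : h ≤ p.val
  · have hA' := hle.mp hA
    have hs : p.val - h < h := by omega
    have hs' : p'.val - h < h := by omega
    rw [Nat.mod_eq_sub_mod hA, Nat.mod_eq_sub_mod hA', Nat.mod_eq_of_lt hs,
      Nat.mod_eq_of_lt hs'] at hi
    omega
  · have hA' : ¬ h ≤ p'.val := fun h' => hA (hle.mpr h')
    have hs : p.val < h := by omega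
    have hs' : p'.val < h := by omega
    rw [Nat.mod_eq_of_lt hs, Nat.mod_eq_of_lt hs'] at hi
    exact hi

end Vale.Agent.Lib.P162.H36
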