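import Mathlib
import Vale.Agent.Lib.P162.Defs
import Vale.Agent.Lib.P162.RDefs
import Vale.Agent.Lib.P162.CVDefs
import Vale.Agent.Lib.P162.helper23.ProdTv
import Vale.Agent.Lib.P162.helper95.KmatBasic
import Vale.Agent.Lib.P162.helper5.TvStep

/-!
Thorp shuffle, two walkers: the Doeblin step. A minorization `κ` of the meeting probability
after `B` steps contracts the collision probability.
-/

namespace Vale.Agent.Lib.P162.H36CV

open Finset BigOperators

/-- Abstract Doeblin step for finite sums. -/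
theorem doeblin_abstract {V Z : Type*} [Fintype V] [Fintype Z]
    (M G : V → Z → Z → ℝ) (A : V → Prop) (H : V → Z → Prop)
    [DecidablePred A] [∀ v, DecidablePred (H v)] (m κ : ℝ)
    (hM : ∀ v q q', 0 ≤ M v q q') (hG : ∀ v q q', 0 ≤ G v q q')
    (hrow : ∀ v q, ∑ q', G v q q' = 1) (hcol : ∀ v q', ∑ q, G v q q' = 1)
    (hsupp : ∀ v q q', M v q q' ≠ 0 → A v ∧ H v q ∧ H v q')
    (hcard : ∀ v, A v → ((univ.filter (fun q => H v q)).card : ℝ) = m)
    (hmin : ∀ v q q', A v → H v q → H v q' → κ ≤ G v q q')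
    (hκm : κ * m ≤ 1)
    (hle : ∀ v q q', 2 * M v q q' ≤ M v q q + M v q' q')
    (htot : ∑ v, ∑ q, ∑ q', M v q q' = 1) :
    ∑ v, ∑ q, ∑ q', M v q q' * G v q q' ≤ κ + (1 - κ * m) * ∑ v, ∑ q, M v q q := by
  -- the reduced kernel
  obtain ⟨G', hG'⟩ : ∃ G' : V → Z → Z → ℝ,
      ∀ v q q', G' v q q' = if A v ∧ H v q ∧ H v q' then G v q q' - κ else 0 :=
    ⟨fun v q q' => if A v ∧ H v q ∧ H v q' then G v q q' - κ else 0, fun _ _ _ => rfl⟩
  have hG'nn : ∀ v q q', 0 ≤ G' v q q' := by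
    intro v q q'
    rw [hG']
    split_ifs with hgood
    · exact sub_nonneg.mpr (hmin v q q' hgood.1 hgood.2.1 hgood.2.2)
    · exact le_refl _
  have hdecomp : ∀ v q q', M v q q' * G v q q' = κ * M v q q' + M v q q' * G' v q q' := by
    intro v q q'
    rw [hG']
    split_ifs with hgood
    · ring
    · have h0 : M v q q' = 0 := by
        by_contra hne
        exact hgood (hsupp v q q' hne)
      rw [h0]
      ring
  have hrow' : ∀ v q, ∑ q', G' v q q' ≤ 1 - κ * m := by
    intro v q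
    by_cases hgood : A v ∧ H v q
    · have hterm : ∀ q', G' v q q' ≤ G v q q' - κ * (if H v q' then (1 : ℝ) else 0) := by
        intro q'
        rw [hG']
        by_cases hq' : H v q'
        · rw [if_pos ⟨hgood.1, hgood.2, hq'⟩, if_pos hq', mul_one]
        · rw [if_neg (fun hh => hq' hh.2.2), if_neg hq', mul_zero, sub_zero]
          exact hG v q q'
      calc ∑ q', G' v q q' ≤ ∑ q', (G v q q' - κ * (if H v q' then (1 : ℝ) else 0)) :=
            Finset.sum_le_sum fun q' _ => hterm q'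
        _ = ∑ q', G v q q' - κ * ∑ q', (if H v q' then (1 : ℝ) else 0) := by
            rw [Finset.sum_sub_distrib, Finset.mul_sum]
        _ = 1 - κ * m := by
            rw [hrow v q, Finset.sum_boole, hcard v hgood.1]
    · have hz : ∀ q', G' v q q' = 0 := by
        intro q'
        rw [hG', if_neg (fun hh => hgood ⟨hh.1, hh.2.1⟩)]
      rw [Finset.sum_congr rfl fun q' _ => hz q', Finset.sum_const_zero]
      linarith
  have hcol' : ∀ v q', ∑ q, G' v q q' ≤ 1 - κ * m := by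
    intro v q'
    by_cases hgood : A v ∧ H v q'
    · have hterm : ∀ q, G' v q q' ≤ G v q q' - κ * (if H v q then (1 : ℝ) else 0) := by
        intro q
        rw [hG']
        by_cases hq : H v q
        · rw [if_pos ⟨hgood.1, hq, hgood.2⟩, if_pos hq, mul_one]
        · rw [if_neg (fun hh => hq hh.2.1), if_neg hq, mul_zero, sub_zero]
          exact hG v q q'
      calc ∑ q, G' v q q' ≤ ∑ q, (G v q q' - κ * (if H v q then (1 : ℝ) else 0)) :=
            Finset.sum_le_sum fun q _ => hterm q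
        _ = ∑ q, G v q q' - κ * ∑ q, (if H v q then (1 : ℝ) else 0) := by
            rw [Finset.sum_sub_distrib, Finset.mul_sum]
        _ = 1 - κ * m := by
            rw [hcol v q', Finset.sum_boole, hcard v hgood.1]
    · have hz : ∀ q, G' v q q' = 0 := by
        intro q
        rw [hG', if_neg (fun hh => hgood ⟨hh.1, hh.2.2⟩)]
      rw [Finset.sum_congr rfl fun q _ => hz q, Finset.sum_const_zero]
      linarith
  -- one block of old cards
  have hv : ∀ v, ∑ q, ∑ q', M v q q' * G' v q q' ≤ (1 - κ * m) * ∑ q, M v q q := by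
    intro v
    have h1 : ∀ q q', M v q q' * G' v q q' ≤
        (1 / 2) * (M v q q * G' v q q') + (1 / 2) * (M v q' q' * G' v q q') := by
      intro q q'
      have h2 := mul_le_mul_of_nonneg_right (hle v q q') (hG'nn v q q')
      linarith
    have hS1 : ∑ q, ∑ q', M v q q * G' v q q' ≤ (1 - κ * m) * ∑ q, M v q q := by
      rw [Finset.mul_sum]
      refine Finset.sum_le_sum fun q _ => ?_
      rw [← Finset.mul_sum, mul_comm (1 - κ * m)]
      exact mul_le_mul_of_nonneg_left (hrow' v q) (hM v q q)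
    have hS2 : ∑ q, ∑ q', M v q' q' * G' v q q' ≤ (1 - κ * m) * ∑ q, M v q q := by
      rw [Finset.sum_comm, Finset.mul_sum]
      refine Finset.sum_le_sum fun q' _ => ?_
      rw [← Finset.mul_sum, mul_comm (1 - κ * m)]
      exact mul_le_mul_of_nonneg_left (hcol' v q') (hM v q' q')
    calc ∑ q, ∑ q', M v q q' * G' v q q'
        ≤ ∑ q, ∑ q', ((1 / 2) * (M v q q * G' v q q') + (1 / 2) * (M v q' q' * G' v q q')) :=
          Finset.sum_le_sum fun q _ => Finset.sum_le_sum fun q' _ => h1 q q'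
      _ = (1 / 2) * ∑ q, ∑ q', M v q q * G' v q q'
            + (1 / 2) * ∑ q, ∑ q', M v q' q' * G' v q q' := by
          simp only [Finset.sum_add_distrib, Finset.mul_sum]
      _ ≤ (1 - κ * m) * ∑ q, M v q q := by linarith
  calc ∑ v, ∑ q, ∑ q', M v q q' * G v q q'
      = ∑ v, ∑ q, ∑ q', (κ * M v q q' + M v q q' * G' v q q') :=
        Finset.sum_congr rfl fun v _ => Finset.sum_congr rfl fun q _ =>
          Finset.sum_congr rfl fun q' _ => hdecomp v q q'
    _ = κ * ∑ v, ∑ q, ∑ q', M v q q' + ∑ v, ∑ q, ∑ q', M v q q' * G' v q q' := by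
        simp only [Finset.sum_add_distrib, Finset.mul_sum]
    _ = κ + ∑ v, ∑ q, ∑ q', M v q q' * G' v q q' := by rw [htot, mul_one]
    _ ≤ κ + ∑ v, (1 - κ * m) * ∑ q, M v q q :=
        add_le_add (le_refl κ) (Finset.sum_le_sum fun v _ => hv v)
    _ = κ + (1 - κ * m) * ∑ v, ∑ q, M v q q := by rw [Finset.mul_sum]

/-- Sum over tuples of length `j + 2` as a sum over the old cards and the two walkers. -/
theorem sum_cons_cons {α : Type*} [Fintype α] [DecidableEq α] (j : ℕ)
    (f : (Fin (j + 2) → α) → ℝ) :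
    ∑ u : Fin (j + 2) → α, f u
      = ∑ v : Fin j → α, ∑ q : α, ∑ q' : α, f (Fin.cons q (Fin.cons q' v)) := by
  calc ∑ u : Fin (j + 2) → α, f u
      = ∑ q : α, ∑ y : Fin (j + 1) → α, f (Fin.cons q y) := H23.sum_fin_succ_fun (j + 1) f
    _ = ∑ q : α, ∑ q' : α, ∑ v : Fin j → α, f (Fin.cons q (Fin.cons q' v)) :=
        Finset.sum_congr rfl fun q _ =>
          H23.sum_fin_succ_fun j (fun y : Fin (j + 1) → α => f (Fin.cons q y))
    _ = ∑ q : α, ∑ v : Fin j → α, ∑ q' : α, f (Fin.cons q (Fin.cons q' v)) :=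
        Finset.sum_congr rfl fun q _ => Finset.sum_comm
    _ = ∑ v : Fin j → α, ∑ q : α, ∑ q' : α, f (Fin.cons q (Fin.cons q' v)) := Finset.sum_comm

/-- Doeblin step: a minorization `κ` of the meeting probability after `B` steps contracts the
collision probability (prerequisites of the two-walker kernel as hypotheses). -/
theorem Dcol_contract_of (h j : ℕ) [NeZero h]
    (hQnn : ∀ (t : ℕ) (u y : Fin (j + 2) → ZMod (2 * h)), 0 ≤ (Qmat h j ^ t) u y)
    (hQsum : ∀ (t : ℕ) (u : Fin (j + 2) → ZMod (2 * h)), ∑ y, (Qmat h j ^ t) u y = 1)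
    (htwo : ∀ (t : ℕ) (q : ZMod (2 * h)) (v : Fin j → ZMod (2 * h))
      (y : Fin (j + 2) → ZMod (2 * h)),
      ∑ q' : ZMod (2 * h), (Qmat h j ^ t) (Fin.cons q (Fin.cons q' v)) y
        = (Kmat h (j + 1) ^ t) (Fin.cons q v) (dropTwo y))
    (hone : ∀ (t : ℕ) (q' : ZMod (2 * h)) (v : Fin j → ZMod (2 * h))
      (y : Fin (j + 2) → ZMod (2 * h)),
      ∑ q : ZMod (2 * h), (Qmat h j ^ t) (Fin.cons q (Fin.cons q' v)) y
        = (Kmat h (j + 1) ^ t) (Fin.cons q' v) (Fin.tail y))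
    (hsupp : ∀ (t : ℕ) (p p' : ZMod (2 * h)) (w : Fin j → ZMod (2 * h)),
      Function.Injective (Fin.cons p w : Fin (j + 1) → ZMod (2 * h)) →
      Function.Injective (Fin.cons p' w : Fin (j + 1) → ZMod (2 * h)) →
      ∀ (q q' : ZMod (2 * h)) (v : Fin j → ZMod (2 * h)),
        (Qmat h j ^ t) (Fin.cons p (Fin.cons p' w)) (Fin.cons q (Fin.cons q' v)) ≠ 0 →
        Function.Injective v ∧ (∀ i, q ≠ v i) ∧ (∀ i, q' ≠ v i))
    (hle : ∀ (t : ℕ) (p q q' : ZMod (2 * h)) (w v : Fin j → ZMod (2 * h)),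
      2 * (Qmat h j ^ t) (Fin.cons p (Fin.cons p w)) (Fin.cons q (Fin.cons q' v))
        ≤ (Qmat h j ^ t) (Fin.cons p (Fin.cons p w)) (Fin.cons q (Fin.cons q v))
          + (Qmat h j ^ t) (Fin.cons p (Fin.cons p w)) (Fin.cons q' (Fin.cons q' v)))
    (B : ℕ) (κ : ℝ) (hκ : 0 ≤ κ)
    (hκm : κ * ((2 * h : ℝ) - j) ≤ 1)
    (hmin : ∀ (v : Fin j → ZMod (2 * h)) (q q' : ZMod (2 * h)), Function.Injective v →
      (∀ i, q ≠ v i) → (∀ i, q' ≠ v i) → κ ≤ Dcol h j B (Fin.cons q (Fin.cons q' v)))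
    (p : ZMod (2 * h)) (w : Fin j → ZMod (2 * h))
    (hz : Function.Injective (Fin.cons p w : Fin (j + 1) → ZMod (2 * h))) (t : ℕ) :
    Dcol h j (t + B) (Fin.cons p (Fin.cons p w))
      ≤ κ + (1 - κ * ((2 * h : ℝ) - j)) * Dcol h j t (Fin.cons p (Fin.cons p w)) := by
  classical
  have _hκ := hκ
  -- nonnegativity of the meeting probability
  have hGnn : ∀ (v : Fin j → ZMod (2 * h)) (q q' : ZMod (2 * h)),
      0 ≤ Dcol h j B (Fin.cons q (Fin.cons q' v)) := by
    intro v q q'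
    rw [Dcol_apply]
    exact Finset.sum_nonneg fun v1 _ => Finset.sum_nonneg fun x _ => hQnn B _ _
  -- row sums
  have hrow : ∀ (v : Fin j → ZMod (2 * h)) (q : ZMod (2 * h)),
      ∑ q' : ZMod (2 * h), Dcol h j B (Fin.cons q (Fin.cons q' v)) = 1 := by
    intro v q
    calc ∑ q' : ZMod (2 * h), Dcol h j B (Fin.cons q (Fin.cons q' v))
        = ∑ q' : ZMod (2 * h), ∑ v1 : Fin j → ZMod (2 * h), ∑ x : ZMod (2 * h),
            (Qmat h j ^ B) (Fin.cons q (Fin.cons q' v)) (Fin.cons x (Fin.cons x v1)) :=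
          Finset.sum_congr rfl fun q' _ => Dcol_apply h j B _
      _ = ∑ v1 : Fin j → ZMod (2 * h), ∑ q' : ZMod (2 * h), ∑ x : ZMod (2 * h),
            (Qmat h j ^ B) (Fin.cons q (Fin.cons q' v)) (Fin.cons x (Fin.cons x v1)) :=
          Finset.sum_comm
      _ = ∑ v1 : Fin j → ZMod (2 * h), ∑ x : ZMod (2 * h), ∑ q' : ZMod (2 * h),
            (Qmat h j ^ B) (Fin.cons q (Fin.cons q' v)) (Fin.cons x (Fin.cons x v1)) :=
          Finset.sum_congr rfl fun v1 _ => Finset.sum_comm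
      _ = ∑ v1 : Fin j → ZMod (2 * h), ∑ x : ZMod (2 * h),
            (Kmat h (j + 1) ^ B) (Fin.cons q v) (Fin.cons x v1) :=
          Finset.sum_congr rfl fun v1 _ => Finset.sum_congr rfl fun x _ =>
            htwo B q v (Fin.cons x (Fin.cons x v1))
      _ = ∑ x : ZMod (2 * h), ∑ v1 : Fin j → ZMod (2 * h),
            (Kmat h (j + 1) ^ B) (Fin.cons q v) (Fin.cons x v1) := Finset.sum_comm
      _ = ∑ y : Fin (j + 1) → ZMod (2 * h), (Kmat h (j + 1) ^ B) (Fin.cons q v) y :=
          (H23.sum_fin_succ_fun j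
            (fun y : Fin (j + 1) → ZMod (2 * h) => (Kmat h (j + 1) ^ B) (Fin.cons q v) y)).symm
      _ = 1 := H95.Kmat_pow_sum h (j + 1) B (Fin.cons q v)
  -- column sums
  have hcol : ∀ (v : Fin j → ZMod (2 * h)) (q' : ZMod (2 * h)),
      ∑ q : ZMod (2 * h), Dcol h j B (Fin.cons q (Fin.cons q' v)) = 1 := by
    intro v q'
    calc ∑ q : ZMod (2 * h), Dcol h j B (Fin.cons q (Fin.cons q' v))
        = ∑ q : ZMod (2 * h), ∑ v1 : Fin j → ZMod (2 * h), ∑ x : ZMod (2 * h),
            (Qmat h j ^ B) (Fin.cons q (Fin.cons q' v)) (Fin.cons x (Fin.cons x v1)) :=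
          Finset.sum_congr rfl fun q _ => Dcol_apply h j B _
      _ = ∑ v1 : Fin j → ZMod (2 * h), ∑ q : ZMod (2 * h), ∑ x : ZMod (2 * h),
            (Qmat h j ^ B) (Fin.cons q (Fin.cons q' v)) (Fin.cons x (Fin.cons x v1)) :=
          Finset.sum_comm
      _ = ∑ v1 : Fin j → ZMod (2 * h), ∑ x : ZMod (2 * h), ∑ q : ZMod (2 * h),
            (Qmat h j ^ B) (Fin.cons q (Fin.cons q' v)) (Fin.cons x (Fin.cons x v1)) :=
          Finset.sum_congr rfl fun v1 _ => Finset.sum_comm
      _ = ∑ v1 : Fin j → ZMod (2 * h), ∑ x : ZMod (2 * h),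
            (Kmat h (j + 1) ^ B) (Fin.cons q' v) (Fin.cons x v1) :=
          Finset.sum_congr rfl fun v1 _ => Finset.sum_congr rfl fun x _ =>
            hone B q' v (Fin.cons x (Fin.cons x v1))
      _ = ∑ x : ZMod (2 * h), ∑ v1 : Fin j → ZMod (2 * h),
            (Kmat h (j + 1) ^ B) (Fin.cons q' v) (Fin.cons x v1) := Finset.sum_comm
      _ = ∑ y : Fin (j + 1) → ZMod (2 * h), (Kmat h (j + 1) ^ B) (Fin.cons q' v) y :=
          (H23.sum_fin_succ_fun j
            (fun y : Fin (j + 1) → ZMod (2 * h) => (Kmat h (j + 1) ^ B) (Fin.cons q' v) y)).symm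
      _ = 1 := H95.Kmat_pow_sum h (j + 1) B (Fin.cons q' v)
  -- the number of positions avoiding the old cards
  have hcard : ∀ v : Fin j → ZMod (2 * h), Function.Injective v →
      ((univ.filter (fun q : ZMod (2 * h) => ∀ i, q ≠ v i)).card : ℝ) = (2 * h : ℝ) - j := by
    intro v hv
    have hjle : j ≤ 2 * h := by
      have h1 := Fintype.card_le_of_injective v hv
      rwa [Fintype.card_fin, ZMod.card] at h1
    have hc := H5.card_avoid j v hv
    rw [ZMod.card] at hc
    have hc' : (univ.filter (fun q : ZMod (2 * h) => ∀ i, q ≠ v i)).card = 2 * h - j := by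
      convert hc
    rw [hc', Nat.cast_sub hjle]
    push_cast
    ring
  -- total mass
  have htot : ∑ v : Fin j → ZMod (2 * h), ∑ q : ZMod (2 * h), ∑ q' : ZMod (2 * h),
      (Qmat h j ^ t) (Fin.cons p (Fin.cons p w)) (Fin.cons q (Fin.cons q' v)) = 1 := by
    rw [← sum_cons_cons j (fun u => (Qmat h j ^ t) (Fin.cons p (Fin.cons p w)) u)]
    exact hQsum t _
  -- Chapman-Kolmogorov
  have hdec : Dcol h j (t + B) (Fin.cons p (Fin.cons p w))
      = ∑ v : Fin j → ZMod (2 * h), ∑ q : ZMod (2 * h), ∑ q' : ZMod (2 * h),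
          (Qmat h j ^ t) (Fin.cons p (Fin.cons p w)) (Fin.cons q (Fin.cons q' v))
            * Dcol h j B (Fin.cons q (Fin.cons q' v)) := by
    have h1 : ∀ (v1 : Fin j → ZMod (2 * h)) (x : ZMod (2 * h)),
        (Qmat h j ^ (t + B)) (Fin.cons p (Fin.cons p w)) (Fin.cons x (Fin.cons x v1))
          = ∑ u : Fin (j + 2) → ZMod (2 * h), (Qmat h j ^ t) (Fin.cons p (Fin.cons p w)) u
              * (Qmat h j ^ B) u (Fin.cons x (Fin.cons x v1)) := by
      intro v1 x
      rw [pow_add, Matrix.mul_apply]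
    calc Dcol h j (t + B) (Fin.cons p (Fin.cons p w))
        = ∑ v1 : Fin j → ZMod (2 * h), ∑ x : ZMod (2 * h),
            ∑ u : Fin (j + 2) → ZMod (2 * h), (Qmat h j ^ t) (Fin.cons p (Fin.cons p w)) u
              * (Qmat h j ^ B) u (Fin.cons x (Fin.cons x v1)) := by
          rw [Dcol_apply]
          exact Finset.sum_congr rfl fun v1 _ => Finset.sum_congr rfl fun x _ => h1 v1 x
      _ = ∑ v1 : Fin j → ZMod (2 * h), ∑ u : Fin (j + 2) → ZMod (2 * h), ∑ x : ZMod (2 * h),
            (Qmat h j ^ t) (Fin.cons p (Fin.cons p w)) u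
              * (Qmat h j ^ B) u (Fin.cons x (Fin.cons x v1)) :=
          Finset.sum_congr rfl fun v1 _ => Finset.sum_comm
      _ = ∑ u : Fin (j + 2) → ZMod (2 * h), ∑ v1 : Fin j → ZMod (2 * h), ∑ x : ZMod (2 * h),
            (Qmat h j ^ t) (Fin.cons p (Fin.cons p w)) u
              * (Qmat h j ^ B) u (Fin.cons x (Fin.cons x v1)) := Finset.sum_comm
      _ = ∑ u : Fin (j + 2) → ZMod (2 * h), (Qmat h j ^ t) (Fin.cons p (Fin.cons p w)) u
            * Dcol h j B u := by
          refine Finset.sum_congr rfl fun u _ => ?_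
          rw [Dcol_apply, Finset.mul_sum]
          refine Finset.sum_congr rfl fun v1 _ => ?_
          rw [Finset.mul_sum]
      _ = ∑ v : Fin j → ZMod (2 * h), ∑ q : ZMod (2 * h), ∑ q' : ZMod (2 * h),
          (Qmat h j ^ t) (Fin.cons p (Fin.cons p w)) (Fin.cons q (Fin.cons q' v))
            * Dcol h j B (Fin.cons q (Fin.cons q' v)) :=
          sum_cons_cons j (fun u => (Qmat h j ^ t) (Fin.cons p (Fin.cons p w)) u * Dcol h j B u)
  have key := doeblin_abstract
    (fun (v : Fin j → ZMod (2 * h)) (q q' : ZMod (2 * h)) =>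
      (Qmat h j ^ t) (Fin.cons p (Fin.cons p w)) (Fin.cons q (Fin.cons q' v)))
    (fun (v : Fin j → ZMod (2 * h)) (q q' : ZMod (2 * h)) =>
      Dcol h j B (Fin.cons q (Fin.cons q' v)))
    (fun v : Fin j → ZMod (2 * h) => Function.Injective v)
    (fun (v : Fin j → ZMod (2 * h)) (q : ZMod (2 * h)) => ∀ i, q ≠ v i)
    ((2 * h : ℝ) - j) κ
    (fun v q q' => hQnn t _ _)
    hGnn hrow hcol
    (fun v q q' hne => hsupp t p p w hz hz q q' v hne)
    hcard
    (fun v q q' hA hq hq' => hmin v q q' hA hq hq')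
    hκm
    (fun v q q' => hle t p q q' w v)
    htot
  rw [hdec, Dcol_apply h j t]
  exact key

end Vale.Agent.Lib.P162.H36CV
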