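import Mathlib
import Vale.Agent.Lib.P162.Defs
import Vale.Agent.Lib.P162.RDefs
import Vale.Agent.Lib.P162.helper57.Assembly

/-!
# P162 (Thorp shuffle), job R5: the new card shares a coin with an old card

For `j + 1` tracked cards (the new card in coordinate `0`, the old cards in the other
coordinates), the probability that at time `s ≥ m` the new card shares a coin with one of the
old cards is at most `j / 2 ^ m`, provided `2 ^ m ≤ h`.
-/

namespace Vale.Agent.Lib.P162.H36

open Finset BigOperators

/-- One ordered pair of tracked cards: the probability that at time `s` the card `j'` is the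
partner of the card `j` is at most `2 ^ (-m)`. -/
theorem pair_bound (h k : ℕ) [NeZero h] (x : Fin k → ZMod (2 * h)) (hx : Function.Injective x)
    (j j' : Fin k) (hjj : j ≠ j') (m s : ℕ) (hm : 2 ^ m ≤ h) (hs : m ≤ s) :
    ∑ z, (if z j' = z j + (h : ZMod (2 * h)) then (Kmat h k ^ s) x z else 0) ≤ 1 / 2 ^ m := by
  rw [← Finset.sum_filter]
  set P := univ.filter (fun w : Fin 2 → ZMod (2 * h) => w 1 = w 0 + (h : ZMod (2 * h))) with hP
  have hmaps : ∀ z ∈ univ.filter
      (fun z : Fin k → ZMod (2 * h) => z j' = z j + (h : ZMod (2 * h))),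
      (![z j, z j'] : Fin 2 → ZMod (2 * h)) ∈ P := by
    intro z hz
    rw [Finset.mem_filter] at hz
    rw [hP, Finset.mem_filter]
    refine ⟨Finset.mem_univ _, ?_⟩
    show z j' = z j + (h : ZMod (2 * h))
    exact hz.2
  rw [← Finset.sum_fiberwise_of_maps_to hmaps]
  have h3 : ∀ w ∈ P,
      ∑ z ∈ (univ.filter
          (fun z : Fin k → ZMod (2 * h) => z j' = z j + (h : ZMod (2 * h)))).filter
          (fun z => (![z j, z j'] : Fin 2 → ZMod (2 * h)) = w), (Kmat h k ^ s) x z
        = (Kmat h 2 ^ s) ![x j, x j'] w := by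
    intro w hw
    rw [hP, Finset.mem_filter] at hw
    rw [← H5.lump_pair h k x j j' hjj s w]
    apply Finset.sum_congr _ (fun _ _ => rfl)
    ext z
    rw [Finset.mem_filter, Finset.mem_filter, Finset.mem_filter]
    constructor
    · rintro ⟨_, h2⟩
      rw [← h2]
      exact ⟨Finset.mem_univ _, rfl, rfl⟩
    · rintro ⟨_, ha, hb⟩
      refine ⟨⟨Finset.mem_univ _, ?_⟩, ?_⟩
      · rw [ha, hb]
        exact hw.2
      · funext i
        fin_cases i
        · exact ha
        · exact hb
  rw [Finset.sum_congr rfl h3]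
  have hxj : (![x j, x j'] : Fin 2 → ZMod (2 * h)) 0 ≠ (![x j, x j'] : Fin 2 → ZMod (2 * h)) 1 := by
    show x j ≠ x j'
    exact fun hh => hjj (hx hh)
  exact H57.pair_partner h ![x j, x j'] hxj m s hm hs

theorem new_bad_prob (h j : ℕ) [NeZero h] [DecidablePred (newBad h j)]
    (x : Fin (j + 1) → ZMod (2 * h)) (hx : Function.Injective x) (m s : ℕ) (hm : 2 ^ m ≤ h)
    (hs : m ≤ s) :
    ∑ z ∈ univ.filter (newBad h j), (Kmat h (j + 1) ^ s) x z ≤ (j : ℝ) / 2 ^ m := by
  have hnn : ∀ z, 0 ≤ (Kmat h (j + 1) ^ s) x z := fun z => H95.Kmat_pow_nonneg h (j + 1) s x z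
  -- union bound over the old cards
  have h1 : ∑ z ∈ univ.filter (newBad h j), (Kmat h (j + 1) ^ s) x z
      ≤ ∑ z, ∑ i : Fin j,
          (if z i.succ = z 0 + (h : ZMod (2 * h)) then (Kmat h (j + 1) ^ s) x z else 0) := by
    rw [Finset.sum_filter]
    apply Finset.sum_le_sum
    intro z _
    have hterm : ∀ i ∈ (univ : Finset (Fin j)),
        0 ≤ (if z i.succ = z 0 + (h : ZMod (2 * h)) then (Kmat h (j + 1) ^ s) x z else 0) := by
      intro i _
      split_ifs
      · exact hnn z
      · exact le_refl _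
    by_cases hb : newBad h j z
    · rw [if_pos hb]
      by_cases hz : (Kmat h (j + 1) ^ s) x z = 0
      · have hsum := Finset.sum_nonneg hterm
        linarith
      · have hzinj := H95.Kmat_pow_support h (j + 1) (move_injective h) x hx s z hz
        obtain ⟨i, hc⟩ := hb
        rw [cast_eq_iff] at hc
        have hc' : z i.succ = z 0 + (h : ZMod (2 * h)) := by
          rcases hc with hc | hc
          · exact absurd (hzinj hc) (Fin.succ_ne_zero i)
          · exact hc
        have h3 := Finset.single_le_sum hterm (Finset.mem_univ i)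
        rw [if_pos hc'] at h3
        exact h3
    · rw [if_neg hb]
      exact Finset.sum_nonneg hterm
  have h2 : ∀ i : Fin j,
      ∑ z, (if z i.succ = z 0 + (h : ZMod (2 * h)) then (Kmat h (j + 1) ^ s) x z else 0)
        ≤ 1 / 2 ^ m :=
    fun i => pair_bound h (j + 1) x hx 0 i.succ (Fin.succ_ne_zero i).symm m s hm hs
  calc ∑ z ∈ univ.filter (newBad h j), (Kmat h (j + 1) ^ s) x z
      ≤ ∑ z, ∑ i : Fin j,
          (if z i.succ = z 0 + (h : ZMod (2 * h)) then (Kmat h (j + 1) ^ s) x z else 0) := h1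
    _ = ∑ i : Fin j, ∑ z,
          (if z i.succ = z 0 + (h : ZMod (2 * h)) then (Kmat h (j + 1) ^ s) x z else 0) :=
        Finset.sum_comm
    _ ≤ ∑ _i : Fin j, (1 / 2 ^ m : ℝ) := Finset.sum_le_sum fun i _ => h2 i
    _ = (j : ℝ) / 2 ^ m := by
        rw [Finset.sum_const, Finset.card_univ, Fintype.card_fin, nsmul_eq_mul]
        ring

end Vale.Agent.Lib.P162.H36
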